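import Mathlib
import Vale.Agent.P322.HighProp

/-!
P322: the Courtade-Kumar inequality for all Boolean functions at every crossover.
-/

open Real

namespace Vale.Agent.Results.P322.CourtadeKumar

open Vale.Agent.P322

/-- The Courtade-Kumar conjecture: for every `n`, every Boolean function and every crossover
`ε ∈ [0, 1/2]`, `I(f X ; Y) ≤ 1 - h₂(ε)`. -/
theorem result : ∀ n : ℕ, ∀ f : (Fin n → Bool) → Bool, ∀ ε : ℝ, 0 ≤ ε → ε ≤ 1 / 2 →
    mutualInfo ε f ≤ 1 - binEntropy ε / log 2 := by
  intro n f ε h0 h1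
  have h := courtade_kumar_of highProp f h0 h1
  rw [← mutualInfo_mul_log_two h0 (by linarith) f] at h
  have hL : 0 < log 2 := log_pos (by norm_num)
  rw [one_sub_div hL.ne', le_div_iff₀ hL]
  exact h

end Vale.Agent.Results.P322.CourtadeKumar
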